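import Vale.Agent.P197.TS.Spec

/-! P197, block TRIV: top data with trivial content. -/

namespace Vale.Agent.P197.TS.H95

open Equiv Finset Vale.Agent.P197 Vale.Agent.P197.TS

noncomputable section

/-- cells of the four rows -/
def cells (w e : ℕ) : Finset (ℕ × ℕ) :=
  (range 4 ×ˢ range (4 * w)) ∪ ({0} ×ˢ Ico (4 * w) (4 * w + e))

theorem mem_cells {w e a c : ℕ} : (a, c) ∈ cells w e ↔ topCell w e a c := by
  simp only [cells, mem_union, mem_product, mem_range, mem_singleton, mem_Ico, topCell]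
  omega

theorem card_cells (w e : ℕ) : (cells w e).card = 16 * w + e := by
  rw [cells, card_union_of_disjoint]
  · simp [card_product]
    omega
  · rw [disjoint_left]
    rintro ⟨a, c⟩ h1 h2
    simp only [mem_product, mem_range, mem_singleton, mem_Ico] at h1 h2
    omega

/-- the diagonal kernel -/
def del {Y : Type} (u u' : Y → ℕ) : ℂ := by
  classical exact if u = u' then 1 else 0

theorem Fn_polyt {Y : Type} [Fintype Y] [DecidableEq Y] (r j : Y → ℕ)
    (hinj : ∀ y z, r y = r z → j y = j z → y = z) (h : Perm Y) :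
    Fn (kform del) (polyt j r) (polyt j r) h = ((stab j).card : ℂ) := by
  classical
  have h1 : ∀ π : Perm Y, wordRep Y h (Finsupp.single (r ∘ ⇑(π⁻¹ : Perm Y)) (1 : ℂ)) =
      Finsupp.single ((r ∘ ⇑(π⁻¹ : Perm Y)) ∘ ⇑(h⁻¹ : Perm Y)) 1 := by
    intro π
    show Finsupp.lmapDomain ℂ ℂ (fun u : Y → ℕ => u ∘ ⇑(h⁻¹ : Perm Y)) _ = _
    rw [Finsupp.lmapDomain_apply, Finsupp.mapDomain_single]
  have h2 : Fn (kform del) (polyt j r) (polyt j r) h =
      ∑ π ∈ stab j, ∑ π' ∈ stab j, (((Perm.sign π : ℤ) : ℂ) * ((Perm.sign π' : ℤ) : ℂ)) *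
        del ((r ∘ ⇑(π⁻¹ : Perm Y)) ∘ ⇑(h⁻¹ : Perm Y)) ((r ∘ ⇑(π'⁻¹ : Perm Y)) ∘ ⇑(h⁻¹ : Perm Y)) := by
    have hv : wordRep Y h (polyt j r) = ∑ π ∈ stab j, ((Perm.sign π : ℤ) : ℂ) •
        Finsupp.single ((r ∘ ⇑(π⁻¹ : Perm Y)) ∘ ⇑(h⁻¹ : Perm Y)) (1 : ℂ) := by
      rw [polyt, map_sum]
      refine sum_congr rfl fun π _ => ?_
      rw [map_smul, h1]
    rw [Fn, hv, LinearMap.map_sum₂]
    refine sum_congr rfl fun π _ => ?_
    rw [map_sum]
    refine sum_congr rfl fun π' _ => ?_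
    rw [map_smul, map_smul, LinearMap.smul_apply, kform_single, smul_eq_mul, smul_eq_mul]
    ring
  rw [h2]
  have h3 : ∀ π ∈ stab j, ∑ π' ∈ stab j, (((Perm.sign π : ℤ) : ℂ) * ((Perm.sign π' : ℤ) : ℂ)) *
        del ((r ∘ ⇑(π⁻¹ : Perm Y)) ∘ ⇑(h⁻¹ : Perm Y))
          ((r ∘ ⇑(π'⁻¹ : Perm Y)) ∘ ⇑(h⁻¹ : Perm Y)) = 1 := by
    intro π hπ
    rw [sum_eq_single π]
    · have : ((Perm.sign π : ℤ) : ℂ) * ((Perm.sign π : ℤ) : ℂ) = 1 := by
        rw [← Int.cast_mul, ← Units.val_mul, Int.units_mul_self]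
        simp
      rw [this]
      simp [del]
    · intro π' hπ' hne
      have hn : ¬ ((r ∘ ⇑(π⁻¹ : Perm Y)) ∘ ⇑(h⁻¹ : Perm Y) =
          (r ∘ ⇑(π'⁻¹ : Perm Y)) ∘ ⇑(h⁻¹ : Perm Y)) := by
        intro heq
        apply hne
        have h4 : ∀ y, r (π⁻¹ y) = r (π'⁻¹ y) := by
          intro y
          have := congrFun heq (h y)
          simpa using this
        have h5 : ∀ y, j (π⁻¹ y) = j (π'⁻¹ y) := by
          intro y
          have e1 := (mem_filter.1 hπ).2 (π⁻¹ y)
          have e2 := (mem_filter.1 hπ').2 (π'⁻¹ y)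
          have e3 : π (π⁻¹ y) = y := by simp
          have e4 : π' (π'⁻¹ y) = y := by simp
          rw [e3] at e1
          rw [e4] at e2
          rw [← e1, ← e2]
        have h6 : π⁻¹ = π'⁻¹ := Equiv.ext fun y => hinj _ _ (h4 y) (h5 y)
        exact (inv_injective h6).symm
      rw [del, if_neg hn, mul_zero]
    · intro hn
      exact absurd hπ hn
  rw [sum_congr rfl h3]
  simp

theorem pTriv : PTriv := by
  classical
  intro Y _ _ w e b rl cl hcard hcl hb
  have hc : Fintype.card Y = Fintype.card (cells w e) := by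
    rw [Fintype.card_coe, card_cells, hcard]
  set t : Y ≃ cells w e := Fintype.equivOfCardEq hc with ht
  set r : Y → ℕ := fun y => (t y).1.1 with hr
  set j : Y → ℕ := fun y => (t y).1.2 with hj
  set φ : ℕ → ℕ := fun c => if c < 4 * w then 4 * w - 1 - c else c with hφ
  have hφφ : ∀ c, φ (φ c) = c := by
    intro c
    simp only [hφ]
    split_ifs <;> omega
  have hφtop : ∀ a c, topCell w e a c → topCell w e a (φ c) := by
    intro a c h
    simp only [hφ, topCell] at h ⊢
    split_ifs <;> omega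
  have hmem : ∀ y, topCell w e (r y) (j y) := fun y => mem_cells.1 (t y).2
  have hinj : ∀ y z, r y = r z → j y = j z → y = z := by
    intro y z h1 h2
    apply t.injective
    apply Subtype.ext
    exact Prod.ext h1 h2
  have hsurj : ∀ a c, topCell w e a c → ∃ y, r y = a ∧ j y = c := by
    intro a c h
    refine ⟨t.symm ⟨(a, c), mem_cells.2 h⟩, ?_, ?_⟩ <;> simp [hr, hj]
  have hst : stab (fun y => φ (j y)) = stab j := by
    ext π
    simp only [stab, mem_filter, mem_univ, true_and]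
    constructor
    · intro h x
      have := congrArg φ (h x)
      rwa [hφφ, hφφ] at this
    · intro h x
      rw [h x]
  have hpol : polyt (fun y => φ (j y)) r = polyt j r := by
    rw [polyt, polyt, hst]
  refine ⟨r, j, r, fun y => φ (j y), ⟨hmem, hinj, hsurj⟩, ⟨fun y => hφtop _ _ (hmem y), ?_, ?_⟩,
    ?_, del, ?_⟩
  · intro y z h1 h2
    refine hinj y z h1 ?_
    have := congrArg φ h2
    rwa [hφφ, hφφ] at this
  · intro a c h
    obtain ⟨y, h1, h2⟩ := hsurj a (φ c) (hφtop _ _ h)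
    exact ⟨y, h1, by rw [h2, hφφ]⟩
  · intro y
    simp only [hφ]
    split_ifs <;> omega
  · rw [hpol, occ]
    have hcl1 : stab cl = {1} := by
      ext π
      simp only [stab, mem_filter, mem_univ, true_and, mem_singleton]
      constructor
      · intro h
        exact Equiv.ext fun x => hcl (h x)
      · rintro rfl x
        rfl
    rw [hcl1]
    simp only [sum_singleton, Perm.sign_one, Units.val_one, Int.cast_one, one_mul,
      Fn_polyt r j hinj, sum_const, nsmul_eq_mul]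
    have h1 : ∀ f : Y → ℕ, ((stab f).card : ℂ) ≠ 0 := by
      intro f
      have : (1 : Perm Y) ∈ stab f := by simp [stab]
      exact_mod_cast (card_pos.2 ⟨_, this⟩).ne'
    exact mul_ne_zero (h1 _) (h1 _)

end

end Vale.Agent.P197.TS.H95
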